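import Mathlib
import Vale.Agent.P052.Main

namespace Vale.Agent.Results.P052.Nine

theorem result (d : ℕ) (hd : 9 ≤ d) : ∃ Y : Set (EuclideanSpace ℝ (Fin d)),
    Bornology.IsBounded Y ∧ 0 < Metric.diam Y ∧
    ¬ ∃ P : Fin (d + 1) → Set (EuclideanSpace ℝ (Fin d)),
      ⋃ i, P i = Y ∧ ∀ i, Metric.diam (P i) < Metric.diam Y :=
  Vale.Agent.P052.main d hd

end Vale.Agent.Results.P052.Nine
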